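import Vale.Agent.P123.Main

open scoped InnerProductSpace

namespace Vale.Agent.Results.P123.Crouzeix

universe u

/-- Crouzeix's conjecture: for every bounded operator `A` on a nonzero complex Hilbert space and
every complex polynomial `P`, the operator norm of `P(A)` is at most twice the supremum of `|P|`
over the numerical range of `A`. In Mathlib the inner product is conjugate linear in its first
slot, so `⟪x, A x⟫_ℂ` is the number written `⟨Ax, x⟩` in the problem. -/
theorem result (H : Type u) [NormedAddCommGroup H] [InnerProductSpace ℂ H] [CompleteSpace H]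
    [Nontrivial H] (A : H →L[ℂ] H) (P : Polynomial ℂ) :
    ‖Polynomial.aeval A P‖ ≤
      2 * sSup ((fun z : ℂ => ‖P.eval z‖) '' {z : ℂ | ∃ x : H, ‖x‖ = 1 ∧ ⟪x, A x⟫_ℂ = z}) :=
  Vale.Agent.P123.crouzeix A P

end Vale.Agent.Results.P123.Crouzeix
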